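import Vale.Agent.P173FC.Step

/-!
# The contradiction: no aspherical presentation
-/

namespace Vale.Agent.P173FC

open Vale.Agent.P173 Vale.Agent.P173.Hol

namespace Ctx

variable {G X R V : Type*} [Group G] (C : Ctx G X R V)

theorem lat_replicate (a : V) : Lat C.E C.N (Multiset.replicate C.N a) :=
  ⟨Multiset.card_replicate _ _, fun x hx y hy => by
    rw [Multiset.eq_of_mem_replicate hx, Multiset.eq_of_mem_replicate hy]
    exact C.E_refl a⟩

theorem lab_replicate (a : V) : C.Lab (C.Y (Multiset.replicate C.N a)) = a :=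
  Multiset.eq_of_mem_replicate (C.lab_mem _ (C.lat_replicate a))

/-- the path along a scaled edge -/
theorem exists_path {a b : V} (hab : C.E a b) : ∃ W : FreeGroup X,
    FreeGroup.lift C.φ W * C.Y (Multiset.replicate C.N a) = C.Y (Multiset.replicate C.N b) ∧
    ∀ (T : Set V), a ∈ T → b ∈ T → ∀ (L : Type) [Group L] (lam : V → V → L) (z : X → G → L),
      (∀ u ∈ T, ∀ v ∈ T, ∀ w ∈ T, C.E u v → C.E v w → C.E u w → lam u v * lam v w = lam u w) →
      (∀ m m', Step C.E T C.N m m' →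
        hol C.φ z (C.sw m m') (C.Y m) = lam (C.Lab (C.Y m')) (C.Lab (C.Y m))) →
      hol C.φ z W (C.Y (Multiset.replicate C.N a)) = lam b a := by
  have hσ : ∀ x ∈ ({a, b} : Set V), ∀ y ∈ ({a, b} : Set V), C.E x y := by
    rintro x (rfl | rfl) y (rfl | rfl)
    · exact C.E_refl _
    · exact hab
    · exact C.E_symm _ _ hab
    · exact C.E_refl _
  have key := connect (E := C.E) (N := C.N) hσ (a := a) (Or.inl rfl)
    (fun m => ∃ W : FreeGroup X,
      FreeGroup.lift C.φ W * C.Y (Multiset.replicate C.N a) = C.Y m ∧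
      ∀ (T : Set V), a ∈ T → b ∈ T → ∀ (L : Type) [Group L] (lam : V → V → L) (z : X → G → L),
        (∀ u ∈ T, ∀ v ∈ T, ∀ w ∈ T, C.E u v → C.E v w → C.E u w → lam u v * lam v w = lam u w) →
        (∀ m m', Step C.E T C.N m m' →
          hol C.φ z (C.sw m m') (C.Y m) = lam (C.Lab (C.Y m')) (C.Lab (C.Y m))) →
        hol C.φ z W (C.Y (Multiset.replicate C.N a)) = lam (C.Lab (C.Y m)) a)
    ⟨1, by rw [map_one, one_mul], fun T ha _ L _ lam z hM _ => by
      rw [hol_one, C.lab_replicate]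
      exact (mul_eq_left.1 (hM a ha a ha a ha (C.E_refl a) (C.E_refl a) (C.E_refl a))).symm⟩
    (by
      rintro m m' hst ⟨W, hW, hW'⟩
      refine ⟨C.sw m m' * W, by rw [map_mul, mul_assoc, hW, C.sw_spec],
        fun T ha hb L _ lam z hM hz => ?_⟩
      have hT : ({a, b} : Set V) ⊆ T := by
        rintro x (rfl | rfl)
        · exact ha
        · exact hb
      have l1 := C.lab_mem m hst.lat_left
      have l2 := C.lab_mem m' hst.lat_right
      have m1 := (hst.rel (Or.inl l1) (Or.inl l1)).2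
      have m2 := (hst.rel (Or.inr l2) (Or.inr l2)).2
      rw [hol_mul, hW, hz m m' (hst.mono hT), hW' T ha hb L lam z hM hz]
      exact hM _ (hT m2) _ (hT m1) _ ha (hσ _ m2 _ m1) (hσ _ m1 _ (Or.inl rfl))
        (hσ _ m2 _ (Or.inl rfl)))
    (Multiset.replicate C.N b) (fun x hx => Or.inr (Multiset.eq_of_mem_replicate hx))
    (Multiset.card_replicate _ _)
  rw [C.lab_replicate] at key
  exact key

theorem contra (hker : ∀ w, FreeGroup.lift C.φ w = 1 → w ∈ Subgroup.normalClosure (Set.range C.rel))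
    (star : C.Star) (h1 : C.H1) (v0 v1 v2 v3 : V) (e01 : C.E v0 v1) (e12 : C.E v1 v2)
    (e23 : C.E v2 v3) (e30 : C.E v3 v0)
    (L3 : ∀ Sf : Finset V, ∃ (A : Type) (_ : Ring A) (_ : Algebra ℚ A) (F : Filt A)
      (lam : V → V → Aˣ), (∀ v w, (lam v w : A) - 1 ∈ F.J 1) ∧
      (∀ u ∈ Sf, ∀ v ∈ Sf, ∀ w ∈ Sf, C.E u v → C.E v w → C.E u w →
        lam u v * lam v w = lam u w) ∧
      lam v0 v3 * lam v3 v2 * lam v2 v1 * lam v1 v0 ≠ 1) : False := by
  classical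
  obtain ⟨w1, a1, b1⟩ := C.exists_path e01
  obtain ⟨w2, a2, b2⟩ := C.exists_path e12
  obtain ⟨w3, a3, b3⟩ := C.exists_path e23
  obtain ⟨w0, a0, b0⟩ := C.exists_path e30
  set y0 := C.Y (Multiset.replicate C.N v0) with hy0
  have hloop : FreeGroup.lift C.φ (w0 * (w3 * (w2 * w1))) = 1 := by
    have : FreeGroup.lift C.φ (w0 * (w3 * (w2 * w1))) * y0 = y0 := by
      rw [map_mul, map_mul, map_mul, mul_assoc, mul_assoc, mul_assoc, a1, a2, a3, a0]
    exact mul_eq_right.mp this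
  obtain ⟨D, hD⟩ := exists_fill C.φ C.rel C.rel_one _ (hker _ hloop)
  have hsupp : ∀ p : R × G, ∃ s : Finset V, ∀ T : Set V, (∀ a ∈ s, a ∈ T) →
      C.Good T p.1 (p.2 * y0) := by
    intro p
    by_cases hp : C.Near Set.univ p.1 (p.2 * y0)
    · obtain ⟨k, m, hk, hm, -, he⟩ := hp
      exact ⟨m.toFinset, fun T hT =>
        Or.inr ⟨k, m, hk, hm, fun a ha => hT a (Multiset.mem_toFinset.2 ha), he⟩⟩
    · exact ⟨∅, fun T _ => Or.inl hp⟩
  choose sp hsp using hsupp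
  let St : Finset V := {v0, v1, v2, v3} ∪ D.biUnion sp
  obtain ⟨A, _, _, F, lam, hlam, hM, hne⟩ := L3 St
  obtain ⟨z, hz1, hz2⟩ := C.exists_flat F star h1 (St : Set V) lam hlam hM
  have hW := hD Aˣ z ⊤ ⊥ y0 (fun _ _ => Subgroup.mem_top _) (fun u _ y hy => by
    rw [Subgroup.mem_bot] at hy ⊢
    rw [hy, mul_one, mul_inv_cancel]) fun p hp => by
    rw [Subgroup.mem_bot]
    exact hz1 _ _ (hsp p _ fun a ha =>
      Finset.mem_coe.2 (Finset.mem_union_right _ (Finset.mem_biUnion.2 ⟨p, hp, ha⟩)))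
  have m0 : v0 ∈ (St : Set V) := Finset.mem_coe.2 (Finset.mem_union_left _ (by simp))
  have m1 : v1 ∈ (St : Set V) := Finset.mem_coe.2 (Finset.mem_union_left _ (by simp))
  have m2 : v2 ∈ (St : Set V) := Finset.mem_coe.2 (Finset.mem_union_left _ (by simp))
  have m3 : v3 ∈ (St : Set V) := Finset.mem_coe.2 (Finset.mem_union_left _ (by simp))
  have c2 : FreeGroup.lift C.φ (w2 * w1) * y0 = C.Y (Multiset.replicate C.N v2) := by
    rw [map_mul, mul_assoc, a1, a2]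
  have c3 : FreeGroup.lift C.φ (w3 * (w2 * w1)) * y0 = C.Y (Multiset.replicate C.N v3) := by
    rw [map_mul, mul_assoc, c2, a3]
  rw [Subgroup.mem_bot, hol_mul, hol_mul, hol_mul, c3, c2, a1,
    b1 _ m0 m1 Aˣ lam z hM hz2, b2 _ m1 m2 Aˣ lam z hM hz2, b3 _ m2 m3 Aˣ lam z hM hz2,
    b0 _ m3 m0 Aˣ lam z hM hz2] at hW
  apply hne
  rw [← hW, mul_assoc, mul_assoc]

end Ctx

/-- **The core of the lower bound for the geometric dimension.** -/
theorem core {G X R V : Type*} [Group G] (φ : X → G) (rel : R → FreeGroup X)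
    (hsurj : Function.Surjective (FreeGroup.lift φ))
    (hrel : ∀ r, FreeGroup.lift φ (rel r) = 1)
    (hker : ∀ w, FreeGroup.lift φ w = 1 → w ∈ Subgroup.normalClosure (Set.range rel))
    (star : ∀ (B : Type) [AddCommGroup B] [Module ℚ B] (c : R → G → B),
      ∃ b : X → G → B, ∀ r h, S φ b (rel r) h = c r h)
    (E : V → V → Prop) (hr : ∀ v, E v v) (hs : ∀ v w, E v w → E w v)
    (h1 : ∀ (B : Type) [AddCommGroup B] [Module ℚ B] (lam : V → V → B),
      (∀ u v w, E u v → E v w → E u w → lam u v + lam v w = lam u w) →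
        ∃ t : V → B, ∀ v w, E v w → lam v w = t v - t w)
    (v0 v1 v2 v3 : V) (e01 : E v0 v1) (e12 : E v1 v2) (e23 : E v2 v3) (e30 : E v3 v0)
    (L3 : ∀ Sf : Finset V, ∃ (A : Type) (_ : Ring A) (_ : Algebra ℚ A) (F : Filt A)
      (lam : V → V → Aˣ), (∀ v w, (lam v w : A) - 1 ∈ F.J 1) ∧
      (∀ u ∈ Sf, ∀ v ∈ Sf, ∀ w ∈ Sf, E u v → E v w → E u w → lam u v * lam v w = lam u w) ∧
      lam v0 v3 * lam v3 v2 * lam v2 v1 * lam v1 v0 ≠ 1)
    (Φ : Set G) (hΦ : Φ.Finite)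
    (geo : ∀ K : Finset G, ∃ N > 0, ∃ (Y : Multiset V → G) (Lab : G → V),
      (∀ m m', Lat E N m → Lat E N m' → Y m = Y m' → m = m') ∧
      (∀ a b s, E a b → Lat E N (a ::ₘ s) → Lat E N (b ::ₘ s) →
        Y (b ::ₘ s) * (Y (a ::ₘ s))⁻¹ ∈ Φ) ∧
      ∀ k ∈ K, ∀ m, Lat E N m → Lab (k * Y m) ∈ m) : False := by
  obtain ⟨C, rfl, rfl, rfl⟩ := exists_ctx φ rel hsurj hrel hker E hr hs Φ hΦ geo
  exact C.contra hker star h1 v0 v1 v2 v3 e01 e12 e23 e30 L3

universe u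

/-- No presentation is aspherical. -/
theorem not_aspherical_of_geo {Γ : Type} [Group Γ] {V : Type*}
    (E : V → V → Prop) (hr : ∀ v, E v v) (hs : ∀ v w, E v w → E w v)
    (h1 : ∀ (B : Type) [AddCommGroup B] [Module ℚ B] (lam : V → V → B),
      (∀ u v w, E u v → E v w → E u w → lam u v + lam v w = lam u w) →
        ∃ t : V → B, ∀ v w, E v w → lam v w = t v - t w)
    (v0 v1 v2 v3 : V) (e01 : E v0 v1) (e12 : E v1 v2) (e23 : E v2 v3) (e30 : E v3 v0)
    (L3 : ∀ Sf : Finset V, ∃ (A : Type) (_ : Ring A) (_ : Algebra ℚ A) (F : Filt A)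
      (lam : V → V → Aˣ), (∀ v w, (lam v w : A) - 1 ∈ F.J 1) ∧
      (∀ u ∈ Sf, ∀ v ∈ Sf, ∀ w ∈ Sf, E u v → E v w → E u w → lam u v * lam v w = lam u w) ∧
      lam v0 v3 * lam v3 v2 * lam v2 v1 * lam v1 v0 ≠ 1)
    (Φ : Set Γ) (hΦ : Φ.Finite)
    (geo : ∀ K : Finset Γ, ∃ N > 0, ∃ (Y : Multiset V → Γ) (Lab : Γ → V),
      (∀ m m', Lat E N m → Lat E N m' → Y m = Y m' → m = m') ∧
      (∀ a b s, E a b → Lat E N (a ::ₘ s) → Lat E N (b ::ₘ s) →
        Y (b ::ₘ s) * (Y (a ::ₘ s))⁻¹ ∈ Φ) ∧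
      ∀ k ∈ K, ∀ m, Lat E N m → Lab (k * Y m) ∈ m) (P : Pres.{u} Γ) : ¬ P.Aspherical := by
  intro hP
  refine core P.φ (fun r => FreeGroup.mk (P.rel r)) P.surj (fun r => ?_)
    (fun w hw => by rw [← P.ker]; exact hw) (fun B _ _ c => ?_) E hr hs h1 v0 v1 v2 v3
    e01 e12 e23 e30 L3 Φ hΦ geo
  · have : FreeGroup.mk (P.rel r) ∈ (FreeGroup.lift P.φ).ker := by
      rw [P.ker]
      exact Subgroup.subset_normalClosure ⟨r, rfl⟩
    exact this
  · obtain ⟨b, hb⟩ := hP.star_left B c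
    exact ⟨b, fun r h =>
      hb (S P.φ b) (fun a b' h => S_mul _ _ _ _ _) (fun x h => S_of _ _ _ _) r h⟩

end Vale.Agent.P173FC
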