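import Vale.Agent.P173.Bdl.B1

/-!
# Cocycles on the lattice points of a scaled clique complex

The lattice points are the multisets of size `N` supported on a clique; a step replaces one
element by another one. A cocycle on the steps is, up to a coboundary, pulled back from a cocycle
on the clique complex.
-/

namespace Vale.Agent.P173FC

variable {V : Type*}

/-- a multiset of size `N` whose elements are pairwise related -/
def Lat (E : V → V → Prop) (N : ℕ) (m : Multiset V) : Prop :=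
  Multiset.card m = N ∧ ∀ a ∈ m, ∀ b ∈ m, E a b

/-- a multiset on a clique inside `S` -/
def Cq (E : V → V → Prop) (S : Set V) (m : Multiset V) : Prop :=
  (∀ a ∈ m, a ∈ S) ∧ ∀ a ∈ m, ∀ b ∈ m, E a b

/-- a step between two lattice points over `S` -/
def Step (E : V → V → Prop) (S : Set V) (N : ℕ) (m m' : Multiset V) : Prop :=
  ∃ a b s, m = a ::ₘ s ∧ m' = b ::ₘ s ∧ Multiset.card s + 1 = N ∧ Cq E S (a ::ₘ b ::ₘ s)

/-- cocycles on the steps -/
def Coc {B : Type*} [AddCommGroup B] (E : V → V → Prop) (S : Set V) (N : ℕ)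
    (ζ : Multiset V → Multiset V → B) : Prop :=
  ∀ m m' m'', Step E S N m m' → Step E S N m' m'' → Step E S N m m'' →
    ζ m m' + ζ m' m'' = ζ m m''

variable {E : V → V → Prop} {S : Set V} {N : ℕ}

theorem Cq.mono {m m' : Multiset V} (h : Cq E S m) (hm : ∀ a ∈ m', a ∈ m) : Cq E S m' :=
  ⟨fun a ha => h.1 a (hm a ha), fun a ha b hb => h.2 a (hm a ha) b (hm b hb)⟩

theorem Step.mono {S' : Set V} {m m' : Multiset V} (h : Step E S N m m') (hS : S ⊆ S') :
    Step E S' N m m' := by
  obtain ⟨a, b, s, h1, h2, h3, h4⟩ := h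
  exact ⟨a, b, s, h1, h2, h3, fun x hx => hS (h4.1 x hx), h4.2⟩

theorem Step.restrict {S' : Set V} {m m' : Multiset V} (h : Step E S N m m')
    (h1 : ∀ x ∈ m, x ∈ S') (h2 : ∀ x ∈ m', x ∈ S') : Step E S' N m m' := by
  obtain ⟨a, b, s, rfl, rfl, h3, h4⟩ := h
  refine ⟨a, b, s, rfl, rfl, h3, fun x hx => ?_, h4.2⟩
  rcases Multiset.mem_cons.1 hx with rfl | hx
  · exact h1 _ (Multiset.mem_cons_self _ _)
  · exact h2 _ hx

theorem Step.rel {m m' : Multiset V} (h : Step E S N m m') {x y : V} (hx : x ∈ m ∨ x ∈ m')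
    (hy : y ∈ m ∨ y ∈ m') : E x y ∧ x ∈ S := by
  obtain ⟨a, b, s, rfl, rfl, -, h4⟩ := h
  have key : ∀ z, z ∈ a ::ₘ s ∨ z ∈ b ::ₘ s → z ∈ a ::ₘ b ::ₘ s := by
    intro z hz
    simp only [Multiset.mem_cons] at hz ⊢
    tauto
  exact ⟨h4.2 x (key x hx) y (key y hy), h4.1 x (key x hx)⟩

theorem Step.card_left {m m' : Multiset V} (h : Step E S N m m') : Multiset.card m = N := by
  obtain ⟨a, b, s, rfl, rfl, h3, -⟩ := h
  rw [Multiset.card_cons, h3]

theorem Step.card_right {m m' : Multiset V} (h : Step E S N m m') : Multiset.card m' = N := by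
  obtain ⟨a, b, s, rfl, rfl, h3, -⟩ := h
  rw [Multiset.card_cons, h3]

theorem Step.lat_left {m m' : Multiset V} (h : Step E S N m m') : Lat E N m :=
  ⟨h.card_left, fun _ ha _ hb => (h.rel (Or.inl ha) (Or.inl hb)).1⟩

theorem Step.lat_right {m m' : Multiset V} (h : Step E S N m m') : Lat E N m' :=
  ⟨h.card_right, fun _ ha _ hb => (h.rel (Or.inr ha) (Or.inr hb)).1⟩

theorem Step.cq_left {m m' : Multiset V} (h : Step E S N m m') : Cq E S m :=
  ⟨fun _ ha => (h.rel (Or.inl ha) (Or.inl ha)).2, h.lat_left.2⟩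

theorem Coc.mono {B : Type*} [AddCommGroup B] {ζ : Multiset V → Multiset V → B} {S' : Set V}
    (h : Coc E S N ζ) (hS : S' ⊆ S) : Coc E S' N ζ :=
  fun m m' m'' h1 h2 h3 => h m m' m'' (h1.mono hS) (h2.mono hS) (h3.mono hS)

theorem cq_cone (hs : ∀ x y, E x y → E y x) {a : V} (ha : a ∈ S) (hc : ∀ x ∈ S, E a x)
    {m : Multiset V} (h : Cq E S m) : Cq E S (a ::ₘ m) := by
  refine ⟨fun x hx => ?_, fun x hx y hy => ?_⟩
  · rcases Multiset.mem_cons.1 hx with rfl | hx
    · exact ha
    · exact h.1 x hx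
  · rcases Multiset.mem_cons.1 hx with hx1 | hx1 <;> rcases Multiset.mem_cons.1 hy with hy1 | hy1
    · rw [hx1, hy1]
      exact hc _ ha
    · rw [hx1]
      exact hc _ (h.1 y hy1)
    · rw [hy1]
      exact hs _ _ (hc _ (h.1 x hx1))
    · exact h.2 x hx1 y hy1

/-- Over a cone every cocycle is a coboundary. -/
theorem potential {B : Type*} [AddCommGroup B] (hs : ∀ x y, E x y → E y x) {a : V} (ha : a ∈ S)
    (hc : ∀ x ∈ S, E a x) (N : ℕ) : ∀ ζ : Multiset V → Multiset V → B, Coc E S N ζ →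
      ∃ f : Multiset V → B, ∀ m m', Step E S N m m' → ζ m m' = f m' - f m := by
  classical
  induction N with
  | zero =>
    intro ζ _
    refine ⟨0, fun m m' h => ?_⟩
    obtain ⟨_, _, _, _, _, h3, _⟩ := h
    omega
  | succ n ih =>
    intro ζ hζ
    have hst : ∀ x y s, Multiset.card s = n → Cq E S (x ::ₘ y ::ₘ s) →
        Step E S (n + 1) (x ::ₘ s) (y ::ₘ s) := fun x y s h1 h2 =>
      ⟨x, y, s, rfl, rfl, by rw [h1], h2⟩
    have hup : ∀ t t', Step E S n t t' → Step E S (n + 1) (a ::ₘ t) (a ::ₘ t') := by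
      rintro t t' ⟨x, y, s, rfl, rfl, h3, h4⟩
      rw [Multiset.cons_swap a x, Multiset.cons_swap a y]
      refine hst x y _ (by rw [Multiset.card_cons, h3]) ((cq_cone hs ha hc h4).mono ?_)
      intro z hz
      simp only [Multiset.mem_cons] at hz ⊢
      tauto
    obtain ⟨f0, hf0⟩ := ih (fun t t' => ζ (a ::ₘ t) (a ::ₘ t'))
      fun t t' t'' h1 h2 h3 => hζ _ _ _ (hup _ _ h1) (hup _ _ h2) (hup _ _ h3)
    let f : Multiset V → B := fun m =>
      if h : ∃ p : V × Multiset V, m = p.1 ::ₘ p.2 then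
        f0 h.choose.2 - ζ m (a ::ₘ h.choose.2) else 0
    have hf : ∀ x s, Multiset.card s = n → Cq E S (x ::ₘ s) →
        f (x ::ₘ s) = f0 s - ζ (x ::ₘ s) (a ::ₘ s) := by
      intro x s h1 h2
      have hex : ∃ p : V × Multiset V, x ::ₘ s = p.1 ::ₘ p.2 := ⟨(x, s), rfl⟩
      have h3 := hex.choose_spec
      have h4 : f (x ::ₘ s) = f0 hex.choose.2 - ζ (x ::ₘ s) (a ::ₘ hex.choose.2) := dif_pos hex
      rw [h4]
      generalize hex.choose = p at h3
      obtain ⟨y, t⟩ := p
      rcases Multiset.cons_eq_cons.1 h3 with ⟨-, h5⟩ | ⟨-, s', h5, h6⟩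
      · have h7 : s = t := h5
        rw [h7]
      · have h7 : s = y ::ₘ s' := h5
        have h8 : t = x ::ₘ s' := h6
        subst h7 h8
        have hq := cq_cone hs ha hc h2
        have hcard : Multiset.card s' + 1 = n := by rw [← h1, Multiset.card_cons]
        have s1 : Step E S n (y ::ₘ s') (x ::ₘ s') :=
          ⟨y, x, s', rfl, rfl, hcard, by rwa [Multiset.cons_swap]⟩
        have e1 := hf0 _ _ s1
        have s2 : Step E S (n + 1) (x ::ₘ y ::ₘ s') (a ::ₘ y ::ₘ s') :=
          hst x a _ h1 (by rwa [Multiset.cons_swap])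
        have s3 : Step E S (n + 1) (x ::ₘ y ::ₘ s') (a ::ₘ x ::ₘ s') := by
          rw [Multiset.cons_swap x y]
          refine hst y a _ (by rw [Multiset.card_cons, hcard]) (hq.mono ?_)
          intro z hz
          simp only [Multiset.mem_cons] at hz ⊢
          tauto
        have e2 := hζ _ _ _ s2 (hup _ _ s1) s3
        show f0 (x ::ₘ s') - ζ (x ::ₘ y ::ₘ s') (a ::ₘ x ::ₘ s') = _
        rw [← e2]
        have e3 : ζ (a ::ₘ y ::ₘ s') (a ::ₘ x ::ₘ s') = f0 (x ::ₘ s') - f0 (y ::ₘ s') := e1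
        rw [e3]
        abel
    refine ⟨f, ?_⟩
    rintro m m' ⟨x, y, s, rfl, rfl, h3, h4⟩
    have h1 : Multiset.card s = n := by omega
    have hx : Cq E S (x ::ₘ s) := h4.mono fun z hz => by
      simp only [Multiset.mem_cons] at hz ⊢
      tauto
    have hy : Cq E S (y ::ₘ s) := h4.mono fun z hz => Multiset.mem_cons_of_mem hz
    have e := hζ _ _ _ (hst x y s h1 h4)
      (hst y a s h1 (by rw [Multiset.cons_swap]; exact cq_cone hs ha hc hy))
      (hst x a s h1 (by rw [Multiset.cons_swap]; exact cq_cone hs ha hc hx))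
    rw [hf x s h1 hx, hf y s h1 hy, ← e]
    abel

/-- The lattice points over a clique are connected by steps. -/
theorem connect {σ : Set V} (hσ : ∀ x ∈ σ, ∀ y ∈ σ, E x y) {a : V} (ha : a ∈ σ)
    (P : Multiset V → Prop) (h0 : P (Multiset.replicate N a))
    (hstep : ∀ m m', Step E σ N m m' → P m → P m') (m : Multiset V) (hm : ∀ x ∈ m, x ∈ σ)
    (hN : Multiset.card m = N) : P m := by
  have key : ∀ t : Multiset V, (∀ x ∈ t, x ∈ σ) → ∀ j, Multiset.card t + j = N →
      P (Multiset.replicate j a + t) := by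
    intro t
    induction t using Multiset.induction_on with
    | empty =>
      intro _ j hj
      rw [Multiset.card_zero, zero_add] at hj
      rw [add_zero, hj]
      exact h0
    | cons y t ih =>
      intro ht j hj
      rw [Multiset.card_cons] at hj
      have h1 := ih (fun x hx => ht x (Multiset.mem_cons_of_mem hx)) (j + 1) (by omega)
      rw [Multiset.replicate_succ, Multiset.cons_add] at h1
      rw [Multiset.add_cons]
      have hmem : ∀ x ∈ a ::ₘ y ::ₘ (Multiset.replicate j a + t), x ∈ σ := by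
        intro x hx
        simp only [Multiset.mem_cons, Multiset.mem_add, Multiset.mem_replicate] at hx
        rcases hx with rfl | rfl | ⟨-, rfl⟩ | hx
        · exact ha
        · exact ht _ (Multiset.mem_cons_self _ _)
        · exact ha
        · exact ht _ (Multiset.mem_cons_of_mem hx)
      refine hstep _ _ ⟨a, y, _, rfl, rfl, ?_, hmem,
        fun x hx z hz => hσ x (hmem x hx) z (hmem z hz)⟩ h1
      rw [Multiset.card_add, Multiset.card_replicate]
      omega
  have := key m hm 0 (by rw [add_zero, hN])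
  rwa [Multiset.replicate_zero, zero_add] at this

/-- **The lattice lemma.** -/
theorem lattice {B : Type*} [AddCommGroup B] (hr : ∀ x, E x x) (hs : ∀ x y, E x y → E y x)
    (ζ : Multiset V → Multiset V → B) (hζ : Coc E S N ζ) :
    ∃ ω : V → V → B, (∀ a ∈ S, ∀ b ∈ S, ∀ c ∈ S, E a b → E b c → E a c → ω a b + ω b c = ω a c) ∧
      ∀ lab : Multiset V → V, ∃ u : Multiset V → B, ∀ m m', Step E S N m m' → lab m ∈ m →
        lab m' ∈ m' → ζ m m' = ω (lab m) (lab m') + (u m' - u m) := by
  have h1 : ∀ a : V, ∃ f : Multiset V → B, a ∈ S →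
      ∀ m m', Step E (S ∩ {x | E a x}) N m m' → ζ m m' = f m' - f m := by
    intro a
    by_cases ha : a ∈ S
    · obtain ⟨f, hf⟩ := potential (S := S ∩ {x | E a x}) hs (a := a) ⟨ha, hr a⟩
        (fun x hx => hx.2) N ζ (hζ.mono Set.inter_subset_left)
      exact ⟨f, fun _ => hf⟩
    · exact ⟨0, fun h => absurd h ha⟩
  choose f hf using h1
  let ω : V → V → B := fun a b => f a (Multiset.replicate N a) - f b (Multiset.replicate N a)
  have hω : ∀ a b m, Cq E S (a ::ₘ b ::ₘ m) → Multiset.card m = N → f a m - f b m = ω a b := by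
    intro a b m hq hm
    have ma : a ∈ a ::ₘ b ::ₘ m := Multiset.mem_cons_self _ _
    have mb : b ∈ a ::ₘ b ::ₘ m := Multiset.mem_cons_of_mem (Multiset.mem_cons_self _ _)
    refine connect (E := E) (N := N) (σ := {x | x ∈ a ::ₘ b ::ₘ m}) hq.2 (a := a) ma
      (fun m => f a m - f b m = ω a b) rfl (fun t t' ht hP => ?_) m
      (fun x hx => Multiset.mem_cons_of_mem (Multiset.mem_cons_of_mem hx)) hm
    have e1 := hf a (hq.1 a ma) t t' (ht.mono fun x hx => ⟨hq.1 x hx, hq.2 a ma x hx⟩)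
    have e2 := hf b (hq.1 b mb) t t' (ht.mono fun x hx => ⟨hq.1 x hx, hq.2 b mb x hx⟩)
    have e3 : f a t' - f b t' = (f a t' - f a t) - (f b t' - f b t) + (f a t - f b t) := by abel
    show f a t' - f b t' = ω a b
    rw [e3, ← e1, ← e2, sub_self, zero_add]
    exact hP
  refine ⟨ω, fun a ha b hb c hc hab hbc hac => ?_, fun lab => ⟨fun m => f (lab m) m, ?_⟩⟩
  · have hq : Cq E S (b ::ₘ c ::ₘ Multiset.replicate N a) := by
      have hmem : ∀ x ∈ b ::ₘ c ::ₘ Multiset.replicate N a, x = a ∨ x = b ∨ x = c := by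
        intro x hx
        simp only [Multiset.mem_cons, Multiset.mem_replicate] at hx
        tauto
      refine ⟨fun x hx => ?_, fun x hx y hy => ?_⟩
      · rcases hmem x hx with rfl | rfl | rfl <;> assumption
      · rcases hmem x hx with rfl | rfl | rfl <;> rcases hmem y hy with rfl | rfl | rfl <;>
          first | exact hr _ | assumption | (apply hs; assumption)
    rw [← hω b c _ hq (Multiset.card_replicate _ _)]
    show f a _ - f b _ + _ = f a _ - f c _
    abel
  · intro m m' hst h2 h3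
    have e1 := hf (lab m) (hst.rel (Or.inl h2) (Or.inl h2)).2 m m'
      (hst.restrict
        (fun x hx => ⟨(hst.rel (Or.inl hx) (Or.inl hx)).2, (hst.rel (Or.inl h2) (Or.inl hx)).1⟩)
        (fun x hx => ⟨(hst.rel (Or.inr hx) (Or.inr hx)).2, (hst.rel (Or.inl h2) (Or.inr hx)).1⟩))
    have hmem : ∀ x ∈ lab m ::ₘ lab m' ::ₘ m', x ∈ m ∨ x ∈ m' := by
      intro x hx
      simp only [Multiset.mem_cons] at hx
      rcases hx with rfl | rfl | hx
      · exact Or.inl h2
      · exact Or.inr h3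
      · exact Or.inr hx
    have e2 := hω (lab m) (lab m') m'
      ⟨fun x hx => (hst.rel (hmem x hx) (hmem x hx)).2,
        fun x hx y hy => (hst.rel (hmem x hx) (hmem y hy)).1⟩ hst.card_right
    rw [e1, ← e2]
    abel

end Vale.Agent.P173FC
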