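import Vale.Agent.P173FC.Words

/-!
# The additive extension lemma and the inductive step
-/

namespace Vale.Agent.P173FC

open Vale.Agent.P173.Hol

namespace Ctx

variable {G X R V : Type*} [Group G] (C : Ctx G X R V)

/-- the word along a step -/
def sw (m m' : Multiset V) : FreeGroup X := C.wd (C.Y m' * (C.Y m)⁻¹)

/-- the faces near the lattice points over `S` -/
def Near (S : Set V) (r : R) (h : G) : Prop :=
  ∃ k m, (r, k) ∈ C.TT ∧ Lat C.E C.N m ∧ (∀ a ∈ m, a ∈ S) ∧ h = k * C.Y m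

/-- the faces on which flatness is required -/
def Good (S : Set V) (r : R) (h : G) : Prop := ¬ C.Near Set.univ r h ∨ C.Near S r h

/-- vanishing of the second cohomology of the Cayley complex -/
def Star : Prop := ∀ (B : Type) [AddCommGroup B] [Module ℚ B] (c : R → G → B),
  ∃ b : X → G → B, ∀ r h, S C.φ b (C.rel r) h = c r h

/-- vanishing of the first cohomology of the clique complex -/
def H1 : Prop := ∀ (B : Type) [AddCommGroup B] [Module ℚ B] (lam : V → V → B),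
  (∀ u v w, C.E u v → C.E v w → C.E u w → lam u v + lam v w = lam u w) →
    ∃ t : V → B, ∀ v w, C.E v w → lam v w = t v - t w

theorem sw_spec (m m' : Multiset V) : FreeGroup.lift C.φ (C.sw m m') * C.Y m = C.Y m' := by
  rw [sw, C.wd_spec, inv_mul_cancel_right]

/-- A cochain that is closed on the near faces gives a cocycle on the steps. -/
theorem coc_of_closed {B : Type} [AddCommGroup B] (b : X → G → B)
    (hb : ∀ r h, C.Near Set.univ r h → S C.φ b (C.rel r) h = 0) :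
    Coc C.E Set.univ C.N fun m m' => S C.φ b (C.sw m m') (C.Y m) := by
  intro m m' m'' s1 s2 _
  have e := C.fill m m' m'' s1 s2 (Multiplicative B) (fun x h => Multiplicative.ofAdd (b x h))
    ⊤ ⊥ (fun _ _ => Subgroup.mem_top _) (fun u _ y hy => by
      rw [Subgroup.mem_bot] at hy ⊢
      rw [hy, mul_one, mul_inv_cancel]) (fun p hp => by
      rw [Subgroup.mem_bot]
      have := hb p.1 (p.2 * C.Y m) ⟨p.2, m, hp, s1.lat_left, fun _ _ => trivial, rfl⟩
      simpa only [S, toAdd_eq_zero] using this)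
  rw [Subgroup.mem_bot, inv_mul_eq_one] at e
  have e2 := congrArg Multiplicative.toAdd e
  rw [toAdd_mul, add_comm] at e2
  exact e2.symm

/-- **Additive extension**: a cocycle on the steps over `S` is induced by a cochain of the Cayley
complex that is closed on the good faces. -/
theorem extend (star : C.Star) (h1 : C.H1) (T : Set V) {B : Type} [AddCommGroup B] [Module ℚ B]
    (ζ : Multiset V → Multiset V → B) (hζ : Coc C.E T C.N ζ) :
    ∃ β : X → G → B, (∀ r h, C.Good T r h → S C.φ β (C.rel r) h = 0) ∧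
      ∀ m m', Step C.E T C.N m m' → S C.φ β (C.sw m m') (C.Y m) = ζ m m' := by
  classical
  obtain ⟨ω, hω, hu⟩ := lattice C.E_refl C.E_symm ζ hζ
  obtain ⟨u', hu'⟩ := hu fun m => C.Lab (C.Y m)
  let θ : X → G → B := fun x g => ω (C.Lab g) (C.Lab (C.φ x * g))
  obtain ⟨β0, hβ0⟩ := star B fun r h =>
    if C.Near Set.univ r h then S C.φ θ (C.rel r) h else 0
  have hcoc := C.coc_of_closed (fun x g => β0 x g - θ x g) fun r h hn => by
    rw [S_sub, hβ0, if_pos hn, sub_self]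
  obtain ⟨ω2, hω2, hu2⟩ := lattice C.E_refl C.E_symm _ hcoc
  obtain ⟨u2, hu2'⟩ := hu2 fun m => C.Lab (C.Y m)
  obtain ⟨t, ht⟩ := h1 B ω2 fun a b c => hω2 a trivial b trivial c trivial
  let U : G → B := fun g => if h : ∃ m, Lat C.E C.N m ∧ C.Y m = g then
    u2 h.choose - t (C.Lab g) - u' h.choose else 0
  have hU : ∀ m, Lat C.E C.N m → U (C.Y m) = u2 m - t (C.Lab (C.Y m)) - u' m := by
    intro m hm
    have hex : ∃ m', Lat C.E C.N m' ∧ C.Y m' = C.Y m := ⟨m, hm, rfl⟩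
    have e : U (C.Y m) = u2 hex.choose - t (C.Lab (C.Y m)) - u' hex.choose := dif_pos hex
    rw [e, C.Y_inj _ _ hex.choose_spec.1 hm hex.choose_spec.2]
  have hωm : ∀ m, Lat C.E C.N m → (∀ a ∈ m, a ∈ T) →
      ∀ a ∈ m, ∀ b ∈ m, ∀ c ∈ m, ω a b + ω b c = ω a c := fun m hm hT a ha b hb c hc =>
    hω a (hT a ha) b (hT b hb) c (hT c hc) (hm.2 a ha b hb) (hm.2 b hb c hc) (hm.2 a ha c hc)
  refine ⟨fun x g => β0 x g - (U (C.φ x * g) - U g), fun r h hg => ?_, fun m m' hst => ?_⟩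
  · rw [S_sub, S_coboundary, C.rel_one, one_mul, sub_self, sub_zero, hβ0]
    rcases hg with hg | ⟨k, m, hk, hm, hT, rfl⟩
    · rw [if_neg hg]
    · rw [if_pos ⟨k, m, hk, hm, fun _ _ => trivial, rfl⟩]
      exact C.tele_face B ω m hm (hωm m hm hT) (r, k) hk
  · have hst' := hst.mono (Set.subset_univ T)
    have l1 := C.lab_mem m hst.lat_left
    have l2 := C.lab_mem m' hst.lat_right
    have e1 := hu2' m m' hst' l1 l2
    have e2 := hu' m m' hst l1 l2
    have e3 : S C.φ θ (C.sw m m') (C.Y m) = ω (C.Lab (C.Y m)) (C.Lab (C.Y m')) :=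
      C.tele_step B ω m m' hst' (hωm m hst.lat_left hst.cq_left.1)
    have e4 := ht _ _ (hst.rel (Or.inl l1) (Or.inr l2)).1
    rw [S_sub, e3, e4] at e1
    rw [S_sub, S_coboundary, C.sw_spec, hU m hst.lat_left, hU m' hst.lat_right, e2,
      sub_eq_iff_eq_add.1 e1]
    abel

variable {A : Type} [Ring A] [Algebra ℚ A] (F : Filt A)

theorem unit_mul_mem {k : ℕ} (hk : 1 ≤ k) {u : Aˣ} (hu : u ∈ F.U 1 le_rfl) {b : A}
    (hb : b ∈ F.J k) : (u : A) * b ∈ F.J k := by
  have e : (u : A) * b = ((u : A) * b - b) + b := by abel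
  rw [e]
  exact (F.J k).add_mem (F.anti k (F.unit_mul_sub hk hu hb)) hb

theorem mul_unit_mem {k : ℕ} (hk : 1 ≤ k) {u : Aˣ} (hu : u ∈ F.U 1 le_rfl) {b : A}
    (hb : b ∈ F.J k) : b * (u : A) ∈ F.J k := by
  have e : b * (u : A) = (b * (u : A) - b) + b := by abel
  rw [e]
  exact (F.J k).add_mem (F.anti k (F.mul_unit_sub hk hu hb)) hb

theorem conj_mem {k : ℕ} (hk : 1 ≤ k) (u : Aˣ) (hu : u ∈ F.U 1 le_rfl) (y : Aˣ)
    (hy : y ∈ F.U k hk) : u * y * u⁻¹ ∈ F.U k hk := by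
  rw [F.mem_U] at hy ⊢
  have e : ((u * y * u⁻¹ : Aˣ) : A) - 1 = (u : A) * ((y : A) - 1) * ((u⁻¹ : Aˣ) : A) := by
    rw [Units.val_mul, Units.val_mul, mul_sub, sub_mul, mul_one, Units.mul_inv]
  rw [e]
  exact mul_unit_mem F hk ((F.U 1 le_rfl).inv_mem hu) (unit_mul_mem F hk hu hy)

/-- Correcting a labelling by a cochain with values in `J k`. -/
theorem exists_correct (φ : X → G) {k : ℕ} (hk : 1 ≤ k) (z : X → G → Aˣ)
    (hz : ∀ x h, z x h ∈ F.U 1 le_rfl) (b : X → G → F.J k) :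
    ∃ z' : X → G → Aˣ, (∀ x h, z' x h ∈ F.U 1 le_rfl) ∧ ∀ w h,
      ((hol φ z' w h : Aˣ) : A) - ((hol φ z w h : Aˣ) : A) + ((S φ b w h : F.J k) : A) ∈
        F.J (k + 1) := by
  have hunit : ∀ x h, IsUnit (1 - (b x h : A)) := fun x h => F.isUnit_one_sub hk (b x h).2
  let z' : X → G → Aˣ := fun x h => z x h * (hunit x h).unit
  have hz' : ∀ x h, ((z' x h : Aˣ) : A) = z x h * (1 - (b x h : A)) := by
    intro x h
    simp only [z', Units.val_mul, IsUnit.unit_spec]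
  refine ⟨z', fun x h => ?_, fun w h => ?_⟩
  · refine (F.U 1 le_rfl).mul_mem (hz x h) ?_
    rw [F.mem_U, IsUnit.unit_spec]
    have e : (1 : A) - (b x h : A) - 1 = -(b x h : A) := by abel
    rw [e]
    exact (F.J 1).neg_mem (F.anti' hk (b x h).2)
  · have e1 := hol_correct F φ hk z z' hz (fun x h => (b x h : A)) (fun x h => (b x h).2) hz' w h
    have e3 : S φ (fun x h => (b x h : A)) w h = ((S φ b w h : F.J k) : A) :=
      S_map (F.J k).toAddSubgroup.subtype φ b w h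
    rwa [e3] at e1

/-- the invariant of the induction -/
def Inv (T : Set V) (lam : V → V → Aˣ) (k l : ℕ) (z : X → G → Aˣ) : Prop :=
  (∀ x h, z x h ∈ F.U 1 le_rfl) ∧
    (∀ r h, C.Good T r h → ((hol C.φ z (C.rel r) h : Aˣ) : A) - 1 ∈ F.J k) ∧
    ∀ m m', Step C.E T C.N m m' → ((hol C.φ z (C.sw m m') (C.Y m) : Aˣ) : A) -
      (lam (C.Lab (C.Y m')) (C.Lab (C.Y m)) : A) ∈ F.J l

theorem step_faces (star : C.Star) (T : Set V) (lam : V → V → Aˣ) {k : ℕ} (hk : 1 ≤ k)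
    {z : X → G → Aˣ} (hz : C.Inv F T lam k k z) : ∃ z', C.Inv F T lam (k + 1) k z' := by
  classical
  obtain ⟨b, hb⟩ := star (F.J k) fun r h =>
    if hp : C.Good T r h then ⟨((hol C.φ z (C.rel r) h : Aˣ) : A) - 1, hz.2.1 r h hp⟩ else 0
  obtain ⟨z', h1, h2⟩ := exists_correct F C.φ hk z hz.1 b
  refine ⟨z', h1, fun r h hg => ?_, fun m m' hst => ?_⟩
  · have e := h2 (C.rel r) h
    rw [hb, dif_pos hg] at e
    have e2 : ((hol C.φ z' (C.rel r) h : Aˣ) : A) - 1 =
        ((hol C.φ z' (C.rel r) h : Aˣ) : A) - ((hol C.φ z (C.rel r) h : Aˣ) : A) +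
          (((hol C.φ z (C.rel r) h : Aˣ) : A) - 1) := by abel
    rw [e2]
    exact e
  · have e := F.anti k (h2 (C.sw m m') (C.Y m))
    have e2 := (F.J k).add_mem ((F.J k).sub_mem e (S C.φ b (C.sw m m') (C.Y m)).2)
      (hz.2.2 m m' hst)
    rwa [add_sub_cancel_right, sub_add_sub_cancel] at e2

theorem step_edges (star : C.Star) (h1 : C.H1) (T : Set V) (lam : V → V → Aˣ)
    (hlam : ∀ v w, lam v w ∈ F.U 1 le_rfl)
    (hM : ∀ u ∈ T, ∀ v ∈ T, ∀ w ∈ T, C.E u v → C.E v w → C.E u w → lam u v * lam v w = lam u w)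
    {k : ℕ} (hk : 1 ≤ k) {z : X → G → Aˣ} (hz : C.Inv F T lam (k + 1) k z) :
    ∃ z', C.Inv F T lam (k + 1) (k + 1) z' := by
  classical
  let W : Submodule ℚ (F.J k) := (F.J (k + 1)).comap (F.J k).subtype
  let δ : Multiset V → Multiset V → F.J k := fun m m' =>
    if hp : Step C.E T C.N m m' then ⟨_, hz.2.2 m m' hp⟩ else 0
  have hδ : ∀ m m', Step C.E T C.N m m' → ((δ m m' : F.J k) : A) =
      ((hol C.φ z (C.sw m m') (C.Y m) : Aˣ) : A) - (lam (C.Lab (C.Y m')) (C.Lab (C.Y m)) : A) := by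
    intro m m' hp
    simp only [δ, dif_pos hp]
  have hcoc : Coc C.E T C.N fun m m' => W.mkQ (δ m m') := by
    intro m m' m'' s1 s2 s3
    rw [← map_add, ← sub_eq_zero, ← map_sub, Submodule.mkQ_apply, Submodule.Quotient.mk_eq_zero]
    show ((δ m m' : F.J k) : A) + (δ m' m'' : F.J k) - (δ m m'' : F.J k) ∈ F.J (k + 1)
    have hk1 : 1 ≤ k + 1 := by omega
    have e := C.fill m m' m'' (s1.mono (Set.subset_univ T)) (s2.mono (Set.subset_univ T)) Aˣ z
      (F.U 1 le_rfl) (F.U (k + 1) hk1) hz.1 (conj_mem F hk1) fun p hp =>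
        hz.2.1 _ _ (Or.inr ⟨p.2, m, hp, s1.lat_left, s1.cq_left.1, rfl⟩)
    have l1 := C.lab_mem m s1.lat_left
    have l2 := C.lab_mem m' s1.lat_right
    have l3 := C.lab_mem m'' s2.lat_right
    have hmul := hM _ (s2.rel (Or.inr l3) (Or.inr l3)).2 _ (s2.rel (Or.inl l2) (Or.inl l2)).2 _
      (s1.rel (Or.inl l1) (Or.inl l1)).2 (s2.rel (Or.inr l3) (Or.inl l2)).1
      (s1.rel (Or.inr l2) (Or.inl l1)).1 (s3.rel (Or.inr l3) (Or.inl l1)).1
    have d1 := hδ m m' s1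
    have d2 := hδ m' m'' s2
    have d3 := hδ m m'' s3
    have a1 := (δ m m').2
    have a2 := (δ m' m'').2
    have pU : hol C.φ z (C.sw m m'') (C.Y m) ∈ F.U 1 le_rfl := hol_mem _ _ _ hz.1 _ _
    have qU : hol C.φ z (C.sw m m') (C.Y m) ∈ F.U 1 le_rfl := hol_mem _ _ _ hz.1 _ _
    have e' : (hol C.φ z (C.sw m m'') (C.Y m))⁻¹ *
        (hol C.φ z (C.sw m' m'') (C.Y m') * hol C.φ z (C.sw m m') (C.Y m)) ∈ F.U (k + 1) hk1 := e
    rw [F.mem_U] at e'
    have e1 := unit_mul_mem F hk1 pU e'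
    rw [mul_sub, ← Units.val_mul, mul_inv_cancel_left, mul_one, Units.val_mul] at e1
    have lU := hlam (C.Lab (C.Y m'')) (C.Lab (C.Y m'))
    have e2 := F.unit_mul_sub hk lU a1
    have e3 := F.mul_unit_sub hk qU a2
    have hmul' := congrArg (fun u : Aˣ => (u : A)) hmul
    simp only [Units.val_mul] at hmul'
    have e4 := (F.J (k + 1)).sub_mem ((F.J (k + 1)).sub_mem e1 e2) e3
    rw [d1, d2] at e4
    rw [d1, d2, d3, ← hmul']
    convert e4 using 1
    noncomm_ring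
  obtain ⟨β, hβ1, hβ2⟩ := C.extend star h1 T _ hcoc
  choose b hb using fun x g => W.mkQ_surjective (β x g)
  have hS : ∀ w h, W.mkQ (S C.φ b w h) = S C.φ β w h := by
    intro w h
    have := S_map W.mkQ.toAddMonoidHom C.φ b w h
    simp only [LinearMap.toAddMonoidHom_coe, hb] at this
    exact this.symm
  obtain ⟨z', h2, h3⟩ := exists_correct F C.φ hk z hz.1 b
  refine ⟨z', h2, fun r h hg => ?_, fun m m' hst => ?_⟩
  · have e1 := hS (C.rel r) h
    rw [hβ1 r h hg, Submodule.mkQ_apply, Submodule.Quotient.mk_eq_zero] at e1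
    have e2 : ((S C.φ b (C.rel r) h : F.J k) : A) ∈ F.J (k + 1) := e1
    have e3 := (F.J (k + 1)).add_mem ((F.J (k + 1)).sub_mem (h3 (C.rel r) h) e2) (hz.2.1 r h hg)
    rwa [add_sub_cancel_right, sub_add_sub_cancel] at e3
  · have e1 := hS (C.sw m m') (C.Y m)
    rw [hβ2 m m' hst, ← sub_eq_zero, ← map_sub, Submodule.mkQ_apply,
      Submodule.Quotient.mk_eq_zero] at e1
    have e2 : ((S C.φ b (C.sw m m') (C.Y m) : F.J k) : A) - (δ m m' : F.J k) ∈ F.J (k + 1) := e1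
    have e3 := (F.J (k + 1)).sub_mem (h3 (C.sw m m') (C.Y m)) e2
    rw [hδ m m' hst] at e3
    convert e3 using 1
    abel

/-- There is a labelling that is flat on the good faces and induces `lam` on the steps. -/
theorem exists_flat (star : C.Star) (h1 : C.H1) (T : Set V) (lam : V → V → Aˣ)
    (hlam : ∀ v w, lam v w ∈ F.U 1 le_rfl)
    (hM : ∀ u ∈ T, ∀ v ∈ T, ∀ w ∈ T, C.E u v → C.E v w → C.E u w → lam u v * lam v w = lam u w) :
    ∃ z : X → G → Aˣ, (∀ r h, C.Good T r h → hol C.φ z (C.rel r) h = 1) ∧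
      ∀ m m', Step C.E T C.N m m' →
        hol C.φ z (C.sw m m') (C.Y m) = lam (C.Lab (C.Y m')) (C.Lab (C.Y m)) := by
  have hind : ∀ k, ∃ z, C.Inv F T lam (k + 1) (k + 1) z := by
    intro k
    induction k with
    | zero =>
      have hU : ∀ (x : X) (h : G), (fun _ _ => 1 : X → G → Aˣ) x h ∈ F.U 1 le_rfl :=
        fun _ _ => (F.U 1 le_rfl).one_mem
      refine ⟨fun _ _ => 1, hU, fun r h _ => hol_mem C.φ _ (F.U 1 le_rfl) hU _ _, fun m m' _ => ?_⟩
      have e := (F.J 1).sub_mem (hol_mem C.φ _ (F.U 1 le_rfl) hU (C.sw m m') (C.Y m))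
        (hlam (C.Lab (C.Y m')) (C.Lab (C.Y m)))
      rwa [sub_sub_sub_cancel_right] at e
    | succ k ih =>
      obtain ⟨z, hz⟩ := ih
      obtain ⟨z1, hz1⟩ := C.step_faces F star T lam (by omega) hz
      exact C.step_edges F star h1 T lam hlam hM (by omega) hz1
  obtain ⟨z, -, h2, h3⟩ := hind F.N
  have hbot : ∀ a ∈ F.J (F.N + 1), a = 0 := by
    intro a ha
    have := F.anti F.N ha
    rwa [F.eq_bot, Submodule.mem_bot] at this
  exact ⟨z, fun r h hg => Units.ext (sub_eq_zero.1 (hbot _ (h2 r h hg))),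
    fun m m' hst => Units.ext (sub_eq_zero.1 (hbot _ (h3 m m' hst)))⟩

end Ctx

end Vale.Agent.P173FC
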