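import Vale.Agent.P173FC.Lattice

/-!
# Translation invariant finiteness statements for words in a Cayley complex
-/

namespace Vale.Agent.P173FC

open Vale.Agent.P173.Hol

variable {G X R : Type*} [Group G]

/-- A path visits finitely many vertices, and pulled back cocycles telescope along it. -/
theorem exists_visited (φ : X → G) (w : FreeGroup X) : ∃ K : Finset G,
    ∀ (B : Type) [AddCommGroup B] (θ : G → G → B) (h : G),
      (∀ a ∈ K, ∀ b ∈ K, ∀ c ∈ K, θ (a * h) (b * h) + θ (b * h) (c * h) = θ (a * h) (c * h)) →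
      S φ (fun x g => θ g (φ x * g)) w h = θ h (FreeGroup.lift φ w * h) := by
  classical
  induction w using FreeGroup.induction_on with
  | C1 =>
    refine ⟨{1}, fun B _ θ h hθ => ?_⟩
    have := hθ 1 (by simp) 1 (by simp) 1 (by simp)
    rw [S_one, map_one]
    rw [one_mul] at this ⊢
    exact (add_eq_left.1 this).symm
  | of x =>
    refine ⟨∅, fun B _ θ h _ => ?_⟩
    rw [S_of, FreeGroup.lift_apply_of]
  | inv_of x _ =>
    refine ⟨{1, (φ x)⁻¹}, fun B _ θ h hθ => ?_⟩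
    have h0 := hθ 1 (by simp) 1 (by simp) 1 (by simp)
    have h1 := hθ 1 (by simp) (φ x)⁻¹ (by simp) 1 (by simp)
    rw [one_mul] at h0 h1
    rw [add_eq_left.1 h0] at h1
    rw [S_inv, S_of, map_inv, FreeGroup.lift_apply_of, mul_inv_cancel_left]
    exact (eq_neg_of_add_eq_zero_left h1).symm
  | mul u v hu hv =>
    obtain ⟨K1, h1⟩ := hu
    obtain ⟨K2, h2⟩ := hv
    refine ⟨K1.image (· * FreeGroup.lift φ v) ∪ K2 ∪
      {1, FreeGroup.lift φ v, FreeGroup.lift φ (u * v)}, fun B _ θ h hθ => ?_⟩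
    have m1 : ∀ a ∈ K1, a * FreeGroup.lift φ v ∈ K1.image (· * FreeGroup.lift φ v) ∪ K2 ∪
        {1, FreeGroup.lift φ v, FreeGroup.lift φ (u * v)} := fun a ha =>
      Finset.mem_union_left _ (Finset.mem_union_left _ (Finset.mem_image_of_mem _ ha))
    have m2 : ∀ a ∈ K2, a ∈ K1.image (· * FreeGroup.lift φ v) ∪ K2 ∪
        {1, FreeGroup.lift φ v, FreeGroup.lift φ (u * v)} := fun a ha =>
      Finset.mem_union_left _ (Finset.mem_union_right _ ha)
    rw [S_mul, h1 B θ _ (fun a ha b hb c hc => by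
        have := hθ _ (m1 a ha) _ (m1 b hb) _ (m1 c hc)
        simpa only [mul_assoc] using this),
      h2 B θ _ fun a ha b hb c hc => hθ _ (m2 a ha) _ (m2 b hb) _ (m2 c hc)]
    have := hθ 1 (by simp) (FreeGroup.lift φ v) (by simp) (FreeGroup.lift φ (u * v)) (by simp)
    rw [one_mul] at this
    rw [← this, map_mul, mul_assoc, add_comm]

/-- A closed word is filled by finitely many faces, uniformly under translation. -/
theorem exists_fill (φ : X → G) (rel : R → FreeGroup X) (hrel : ∀ r, FreeGroup.lift φ (rel r) = 1)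
    (w : FreeGroup X) (hw : w ∈ Subgroup.normalClosure (Set.range rel)) :
    ∃ T : Finset (R × G), ∀ (L : Type) [Group L] (z : X → G → L) (U H : Subgroup L) (h : G),
      (∀ x g, z x g ∈ U) → (∀ u ∈ U, ∀ y ∈ H, u * y * u⁻¹ ∈ H) →
      (∀ p ∈ T, hol φ z (rel p.1) (p.2 * h) ∈ H) → hol φ z w h ∈ H := by
  classical
  have hone : ∀ w ∈ Subgroup.normalClosure (Set.range rel), FreeGroup.lift φ w = 1 := by
    intro w hw
    have : Subgroup.normalClosure (Set.range rel) ≤ (FreeGroup.lift φ).ker :=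
      Subgroup.normalClosure_le_normal (by
        rintro _ ⟨r, rfl⟩
        exact hrel r)
    exact this hw
  rw [Subgroup.normalClosure] at hw hone
  induction hw using Subgroup.closure_induction with
  | mem g hg =>
    rw [Group.mem_conjugatesOfSet_iff] at hg
    obtain ⟨a, ⟨r, rfl⟩, hc⟩ := hg
    obtain ⟨c, rfl⟩ := isConj_iff.mp hc
    refine ⟨{(r, (FreeGroup.lift φ c)⁻¹)}, fun L _ z U H h hU hH hz => ?_⟩
    have h1 := hz _ (Finset.mem_singleton_self _)
    rw [mul_assoc, hol_mul, hol_mul, map_inv, map_mul, hrel, one_mul, hol_inv, map_inv,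
      ← mul_assoc]
    exact hH _ (hol_mem φ z U hU _ _) _ h1
  | one => exact ⟨∅, fun L _ z U H h _ _ _ => by rw [hol_one]; exact H.one_mem⟩
  | mul u v _ hv' hu hv =>
    obtain ⟨F1, h1⟩ := hu
    obtain ⟨F2, h2⟩ := hv
    refine ⟨F1 ∪ F2, fun L _ z U H h hU hH hz => ?_⟩
    rw [hol_mul, hone v hv', one_mul]
    exact H.mul_mem (h1 L z U H h hU hH fun p hp => hz p (Finset.mem_union_left _ hp))
      (h2 L z U H h hU hH fun p hp => hz p (Finset.mem_union_right _ hp))
  | inv u hu' hu =>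
    obtain ⟨F1, h1⟩ := hu
    refine ⟨F1, fun L _ z U H h hU hH hz => ?_⟩
    rw [hol_inv, hone u hu', inv_one, one_mul]
    exact H.inv_mem (h1 L z U H h hU hH hz)

/-- The geometric situation: a scaled copy of a clique complex near a Cayley complex. -/
structure Ctx (G X R V : Type*) [Group G] where
  /-- images of the generators -/
  φ : X → G
  /-- relators -/
  rel : R → FreeGroup X
  /-- the reflexive adjacency -/
  E : V → V → Prop
  /-- the scale -/
  N : ℕ
  /-- the positions of the lattice points -/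
  Y : Multiset V → G
  /-- labels of the vertices of the Cayley complex -/
  Lab : G → V
  /-- words for the group elements -/
  wd : G → FreeGroup X
  /-- the faces used for filling triangles, relative to a lattice point -/
  TT : Set (R × G)
  rel_one : ∀ r, FreeGroup.lift φ (rel r) = 1
  wd_spec : ∀ g, FreeGroup.lift φ (wd g) = g
  E_refl : ∀ v, E v v
  E_symm : ∀ v w, E v w → E w v
  N_pos : 0 < N
  Y_inj : ∀ m m', Lat E N m → Lat E N m' → Y m = Y m' → m = m'
  lab_mem : ∀ m, Lat E N m → Lab (Y m) ∈ m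
  fill : ∀ m m' m'', Step E Set.univ N m m' → Step E Set.univ N m' m'' →
    ∀ (L : Type) [Group L] (z : X → G → L) (U H : Subgroup L),
      (∀ x g, z x g ∈ U) → (∀ u ∈ U, ∀ y ∈ H, u * y * u⁻¹ ∈ H) →
      (∀ p ∈ TT, hol φ z (rel p.1) (p.2 * Y m) ∈ H) →
      (hol φ z (wd (Y m'' * (Y m)⁻¹)) (Y m))⁻¹ *
        (hol φ z (wd (Y m'' * (Y m')⁻¹)) (Y m') * hol φ z (wd (Y m' * (Y m)⁻¹)) (Y m)) ∈ H
  tele_face : ∀ (B : Type) [AddCommGroup B] (ω : V → V → B) (m : Multiset V), Lat E N m →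
    (∀ a ∈ m, ∀ b ∈ m, ∀ c ∈ m, ω a b + ω b c = ω a c) →
    ∀ p ∈ TT, S φ (fun x g => ω (Lab g) (Lab (φ x * g))) (rel p.1) (p.2 * Y m) = 0
  tele_step : ∀ (B : Type) [AddCommGroup B] (ω : V → V → B) (m m' : Multiset V),
    Step E Set.univ N m m' → (∀ a ∈ m, ∀ b ∈ m, ∀ c ∈ m, ω a b + ω b c = ω a c) →
    S φ (fun x g => ω (Lab g) (Lab (φ x * g))) (wd (Y m' * (Y m)⁻¹)) (Y m) =
      ω (Lab (Y m)) (Lab (Y m'))

theorem exists_ctx {V : Type*} (φ : X → G) (rel : R → FreeGroup X)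
    (hsurj : Function.Surjective (FreeGroup.lift φ))
    (hrel : ∀ r, FreeGroup.lift φ (rel r) = 1)
    (hker : ∀ w, FreeGroup.lift φ w = 1 → w ∈ Subgroup.normalClosure (Set.range rel))
    (E : V → V → Prop) (hr : ∀ v, E v v) (hs : ∀ v w, E v w → E w v)
    (Φ : Set G) (hΦ : Φ.Finite)
    (geo : ∀ K : Finset G, ∃ N > 0, ∃ (Y : Multiset V → G) (Lab : G → V),
      (∀ m m', Lat E N m → Lat E N m' → Y m = Y m' → m = m') ∧
      (∀ a b s, E a b → Lat E N (a ::ₘ s) → Lat E N (b ::ₘ s) →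
        Y (b ::ₘ s) * (Y (a ::ₘ s))⁻¹ ∈ Φ) ∧
      ∀ k ∈ K, ∀ m, Lat E N m → Lab (k * Y m) ∈ m) :
    ∃ C : Ctx G X R V, C.φ = φ ∧ C.rel = rel ∧ C.E = E := by
  classical
  choose wd hwd using hsurj
  choose vis hvis using exists_visited φ
  have hloop : ∀ q : G × G, FreeGroup.lift φ ((wd (q.2 * q.1))⁻¹ * (wd q.2 * wd q.1)) = 1 := by
    intro q
    rw [map_mul, map_mul, map_inv, hwd, hwd, hwd, inv_mul_cancel]
  choose T hT using fun q : G × G => exists_fill φ rel hrel _ (hker _ (hloop q))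
  let TT : Finset (R × G) := (hΦ.toFinset ×ˢ hΦ.toFinset).biUnion T
  let K : Finset G := {1} ∪ (hΦ.toFinset.biUnion fun g => vis (wd g)) ∪
    TT.biUnion fun p => insert p.2 ((vis (rel p.1)).image (· * p.2))
  obtain ⟨N, hN, Y, Lab, h1, h2, h3⟩ := geo K
  have hstep : ∀ m m', Step E Set.univ N m m' → Y m' * (Y m)⁻¹ ∈ Φ := by
    intro m m' hst
    have l1 := hst.lat_left
    have l2 := hst.lat_right
    have l3 := fun x y (hx : x ∈ m) (hy : y ∈ m') => (hst.rel (Or.inl hx) (Or.inr hy)).1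
    obtain ⟨a, b, s, rfl, rfl, -, -⟩ := hst
    exact h2 a b s (l3 a b (Multiset.mem_cons_self _ _) (Multiset.mem_cons_self _ _)) l1 l2
  refine ⟨⟨φ, rel, E, N, Y, Lab, wd, TT, hrel, hwd, hr, hs, hN, h1, fun m hm => ?_, ?_, ?_, ?_⟩,
    rfl, rfl, rfl⟩
  · have := h3 1 (by simp [K]) m hm
    rwa [one_mul] at this
  · intro m m' m'' s1 s2 L _ z U H hU hH hz
    have e := hT (Y m' * (Y m)⁻¹, Y m'' * (Y m')⁻¹) L z U H (Y m) hU hH fun p hp =>
      hz p (Finset.mem_coe.2 (Finset.mem_biUnion.2 ⟨_, Finset.mem_product.2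
        ⟨hΦ.mem_toFinset.2 (hstep _ _ s1), hΦ.mem_toFinset.2 (hstep _ _ s2)⟩, hp⟩))
    have e1 : Y m'' * (Y m')⁻¹ * (Y m' * (Y m)⁻¹) = Y m'' * (Y m)⁻¹ := by group
    simp only [e1] at e
    rw [hol_mul, hol_mul, hol_inv, map_mul, hwd, hwd, hwd, e1, inv_mul_cancel_left,
      inv_mul_cancel_right] at e
    exact e
  · intro B _ ω m hm hω p hp
    have hp' : p ∈ TT := hp
    have hK : ∀ a ∈ vis (rel p.1), Lab (a * (p.2 * Y m)) ∈ m := by
      intro a ha
      rw [← mul_assoc]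
      refine h3 _ (Finset.mem_union_right _ (Finset.mem_biUnion.2 ⟨p, hp', ?_⟩)) m hm
      exact Finset.mem_insert_of_mem (Finset.mem_image_of_mem _ ha)
    have h4 : Lab (p.2 * Y m) ∈ m := h3 _ (Finset.mem_union_right _
      (Finset.mem_biUnion.2 ⟨p, hp', Finset.mem_insert_self _ _⟩)) m hm
    rw [hvis (rel p.1) B (fun g g' => ω (Lab g) (Lab g')) _
      (fun a ha b hb c hc => hω _ (hK a ha) _ (hK b hb) _ (hK c hc)), hrel, one_mul]
    exact add_eq_left.1 (hω _ h4 _ h4 _ h4)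
  · intro B _ ω m m' hst hω
    have hK : ∀ a ∈ vis (wd (Y m' * (Y m)⁻¹)), Lab (a * Y m) ∈ m := fun a ha =>
      h3 _ (Finset.mem_union_left _ (Finset.mem_union_right _ (Finset.mem_biUnion.2
        ⟨_, hΦ.mem_toFinset.2 (hstep _ _ hst), ha⟩))) m hst.lat_left
    rw [hvis _ B (fun g g' => ω (Lab g) (Lab g')) _
      (fun a ha b hb c hc => hω _ (hK a ha) _ (hK b hb) _ (hK c hc)), hwd, inv_mul_cancel_right]

end Vale.Agent.P173FC
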